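import Vale.Agent.P283.A647.H170.Poly
import Vale.Agent.P283.T647.G3

/-!
Values and orders in a chart whose units are arbitrary polynomials.
-/

set_option linter.all false

namespace Vale.Agent.P283.A647.H91

open MvPolynomial Finset
open Vale.Agent.P283.H647 (cder cder_add cder_C cder_sum cder_mul_X cder_monomial HypData ResForm)
open Vale.Agent.P283.Z647 (IsMinZ inFormZ wtZ HomogZ AtLeastZ minWt coeff_inFormZ isMinZ_minWt
  wtZ_add wtZ_zero)
open Vale.Agent.P283.T647.G3 (Lead AL_zero lead_C lead_X cder_mul cder_X cder_pow cder_prod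
  pow_shift)
open Vale.Agent.P283.A647.H170 (pY pF pY_ne aeval_q poly_hyp poly_res ppd q_ne)

section Init

variable {N : ℕ}

/-- The part of weight zero. -/
noncomputable def w0 (a : Fin N → ℤ) (P : MvPolynomial (Fin N) ℂ) : MvPolynomial (Fin N) ℂ :=
  ∑ α ∈ P.support.filter (fun α => wtZ a α = 0), monomial α (coeff α P)

theorem coeff_w0 (a : Fin N → ℤ) (P : MvPolynomial (Fin N) ℂ) (α : Fin N →₀ ℕ) :
    coeff α (w0 a P) = if wtZ a α = 0 then coeff α P else 0 := by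
  classical
  unfold w0
  rw [coeff_sum]
  simp only [coeff_monomial]
  rw [Finset.sum_ite_eq']
  by_cases h : wtZ a α = 0
  · rw [if_pos h]
    by_cases h' : coeff α P = 0
    · rw [h', ite_self]
    · rw [if_pos (Finset.mem_filter.2 ⟨mem_support_iff.2 h', h⟩)]
  · rw [if_neg h, if_neg]
    intro h'
    exact h (Finset.mem_filter.1 h').2

theorem lead_w0 {a : Fin N → ℤ} {P : MvPolynomial (Fin N) ℂ} (h : AtLeastZ a P 0) :
    Lead a 0 P (w0 a P) := by
  constructor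
  · intro α hα
    rw [mem_support_iff, coeff_w0] at hα
    by_contra hne
    rw [if_neg hne] at hα
    exact hα rfl
  · intro α hα
    rw [mem_support_iff, coeff_sub, coeff_w0] at hα
    by_cases hw : wtZ a α = 0
    · rw [if_pos hw, sub_self] at hα
      exact absurd rfl hα
    · rw [if_neg hw, sub_zero] at hα
      have h1 := h α (mem_support_iff.2 hα)
      omega

theorem cder_poly {δ : Derivation ℚ ℂ ℂ} {P : MvPolynomial (Fin N) ℂ}
    (h : ∀ α, δ (coeff α P) = 0) (ξ : Fin N → ℂ) : cder δ ξ P = 0 := by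
  rw [P.as_sum, cder_sum]
  refine Finset.sum_eq_zero fun α _ => ?_
  rw [cder_monomial, h, zero_mul]

theorem der_w0 {δ : Derivation ℚ ℂ ℂ} {P : MvPolynomial (Fin N) ℂ}
    (h : ∀ α, δ (coeff α P) = 0) (a : Fin N → ℤ) (α : Fin N →₀ ℕ) :
    δ (coeff α (w0 a P)) = 0 := by
  rw [coeff_w0]
  split_ifs
  · exact h α
  · exact map_zero δ

theorem coeff_zero_w0 (a : Fin N → ℤ) (P : MvPolynomial (Fin N) ℂ) :
    coeff 0 (w0 a P) = coeff 0 P := by
  rw [coeff_w0, if_pos (wtZ_zero a)]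

end Init

section Main

variable {d : ℕ} {U : Type} [Fintype U]

/-- The equation. -/
noncomputable def fl (u : U → MvPolynomial (Fin (d + 1)) ℂ) : MvPolynomial (Fin (d + 1)) ℂ :=
  X 0 * ∏ i, u i + C (-1)

theorem lead_f {a : Fin (d + 1) → ℤ} {u : U → MvPolynomial (Fin (d + 1)) ℂ}
    (hu : ∀ i, AtLeastZ a (u i) 0) (h0 : a 0 = 0) :
    Lead a 0 (fl u) (fl fun i => w0 a (u i)) := by
  unfold fl
  refine Lead.add ?_ (lead_C _)
  have h3 := (lead_X (a := a) 0).mul (Lead.prod (a := a) Finset.univ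
    (P := fun i => u i) (G := fun i => w0 a (u i)) (m := fun _ => 0)
    (fun i _ => lead_w0 (hu i)))
  rw [h0, Finset.sum_const_zero, add_zero] at h3
  exact h3

theorem eval_fl (u : U → MvPolynomial (Fin (d + 1)) ℂ) (ξ : Fin (d + 1) → ℂ) :
    eval ξ (fl u) = ξ 0 * ∏ i, eval ξ (u i) - 1 := by
  unfold fl
  rw [map_add, map_mul, eval_X, map_prod, eval_C, sub_eq_add_neg]

theorem fl_ne (u : U → MvPolynomial (Fin (d + 1)) ℂ) : fl u ≠ 0 := by
  intro h
  have h1 := eval_fl u 0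
  rw [h, map_zero] at h1
  simp at h1

theorem cder_fl {δ : Derivation ℚ ℂ ℂ} {u : U → MvPolynomial (Fin (d + 1)) ℂ}
    (hu : ∀ i α, δ (coeff α (u i)) = 0) (ξ : Fin (d + 1) → ℂ) : cder δ ξ (fl u) = 0 := by
  unfold fl
  rw [cder_add, cder_mul, cder_X, cder_prod _ fun i _ => cder_poly (hu i) ξ, cder_C, map_neg,
    Derivation.map_one_eq_zero]
  ring

/-- A term multiplied by a monomial. -/
noncomputable def pe (T : ℕ) (u : U → MvPolynomial (Fin (d + 1)) ℂ)
    (e : (U → ℤ) × (Fin d → ℤ)) : MvPolynomial (Fin (d + 1)) ℂ :=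
  (∏ i, u i ^ (e.1 i + T).toNat) * ∏ j : Fin d, X j.succ ^ (e.2 j + T).toNat

/-- The weight of `pe`. -/
def we (a : Fin (d + 1) → ℤ) (T : ℕ) (e : (U → ℤ) × (Fin d → ℤ)) : ℤ :=
  ∑ j : Fin d, ((e.2 j + T).toNat : ℤ) * a j.succ

theorem lead_pe {a : Fin (d + 1) → ℤ} {u : U → MvPolynomial (Fin (d + 1)) ℂ}
    (hu : ∀ i, AtLeastZ a (u i) 0) (T : ℕ) (e : (U → ℤ) × (Fin d → ℤ)) :
    Lead a (we a T e) (pe T u e) (pe T (fun i => w0 a (u i)) e) := by
  unfold we pe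
  have h1 := Lead.prod (a := a) Finset.univ
    (P := fun i => u i ^ (e.1 i + T).toNat)
    (G := fun i => w0 a (u i) ^ (e.1 i + T).toNat)
    (m := fun i => ((e.1 i + T).toNat : ℤ) * 0) (fun i _ => (lead_w0 (hu i)).pow _)
  simp only [mul_zero, Finset.sum_const_zero] at h1
  have h2 := h1.mul (Lead.prod (a := a) Finset.univ
    (P := fun j : Fin d => (X j.succ : MvPolynomial (Fin (d + 1)) ℂ) ^ (e.2 j + T).toNat)
    (G := fun j : Fin d => (X j.succ : MvPolynomial (Fin (d + 1)) ℂ) ^ (e.2 j + T).toNat)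
    (m := fun j => ((e.2 j + T).toNat : ℤ) * a j.succ) (fun j _ => (lead_X _).pow _))
  rw [zero_add] at h2
  exact h2

theorem cder_pe {δ : Derivation ℚ ℂ ℂ} {u : U → MvPolynomial (Fin (d + 1)) ℂ}
    (hu : ∀ i α, δ (coeff α (u i)) = 0) (T : ℕ) (ξ : Fin (d + 1) → ℂ)
    (e : (U → ℤ) × (Fin d → ℤ)) : cder δ ξ (pe T u e) = 0 := by
  unfold pe
  rw [cder_mul, cder_prod _ fun i _ => cder_pow (cder_poly (hu i) ξ) _,
    cder_prod _ fun l _ => cder_pow (cder_X _) _]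
  ring

theorem pe_ne {u : U → MvPolynomial (Fin (d + 1)) ℂ} (hu : ∀ i, u i ≠ 0) (T : ℕ)
    (e : (U → ℤ) × (Fin d → ℤ)) : pe T u e ≠ 0 := by
  unfold pe
  refine mul_ne_zero ?_ ?_
  · exact Finset.prod_ne_zero_iff.2 fun i _ => pow_ne_zero _ (hu i)
  · exact Finset.prod_ne_zero_iff.2 fun i _ => pow_ne_zero _ (X_ne_zero _)

/-- The polynomial. -/
noncomputable def pS (T : ℕ) (u : U → MvPolynomial (Fin (d + 1)) ℂ)
    (Ee : Finset ((U → ℤ) × (Fin d → ℤ))) (lam : (U → ℤ) × (Fin d → ℤ) → ℂ) :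
    MvPolynomial (Fin (d + 1)) ℂ :=
  ∑ e ∈ Ee, C (lam e) * pe T u e

/-- Its leading part. -/
noncomputable def gS (a : Fin (d + 1) → ℤ) (T : ℕ) (u : U → MvPolynomial (Fin (d + 1)) ℂ)
    (Ee : Finset ((U → ℤ) × (Fin d → ℤ))) (lam : (U → ℤ) × (Fin d → ℤ) → ℂ)
    (e₀ : (U → ℤ) × (Fin d → ℤ)) : MvPolynomial (Fin (d + 1)) ℂ :=
  ∑ e ∈ Ee, if we a T e = we a T e₀ then C (lam e) * pe T (fun i => w0 a (u i)) e else 0

variable {u : U → MvPolynomial (Fin (d + 1)) ℂ} {Ee : Finset ((U → ℤ) × (Fin d → ℤ))}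
  {lam : (U → ℤ) × (Fin d → ℤ) → ℂ}

theorem lead_S {a : Fin (d + 1) → ℤ} (hu : ∀ i, AtLeastZ a (u i) 0) (T : ℕ)
    {e₀ : (U → ℤ) × (Fin d → ℤ)} (hmin : ∀ e ∈ Ee, we a T e₀ ≤ we a T e) :
    Lead a (we a T e₀) (pS T u Ee lam) (gS a T u Ee lam e₀) := by
  unfold pS gS
  refine Lead.sum _ fun e he => ?_
  have h1 := (lead_C (a := a) (lam e)).mul (lead_pe hu T e)
  rw [zero_add] at h1
  split_ifs with h
  · rw [h] at h1
    exact h1
  · exact Lead.of_gt h1.atLeast (lt_of_le_of_ne (hmin e he) (Ne.symm h))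

theorem cder_gS {a : Fin (d + 1) → ℤ} {T : ℕ} {e₀ : (U → ℤ) × (Fin d → ℤ)}
    (he₀ : e₀ ∈ Ee) {δ : Derivation ℚ ℂ ℂ} (hu : ∀ i α, δ (coeff α (u i)) = 0)
    (h1 : δ (lam e₀) = 1) (h2 : ∀ e ∈ Ee, e ≠ e₀ → δ (lam e) = 0) (ξ : Fin (d + 1) → ℂ) :
    cder δ ξ (gS a T u Ee lam e₀) = eval ξ (pe T (fun i => w0 a (u i)) e₀) := by
  have hu' : ∀ i α, δ (coeff α (w0 a (u i))) = 0 := fun i α => der_w0 (hu i) a α
  unfold gS
  rw [cder_sum, Finset.sum_eq_single_of_mem e₀ he₀]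
  · rw [if_pos rfl, cder_mul, cder_C, h1, cder_pe hu', one_mul, mul_zero, add_zero]
  · intro e he hne
    split_ifs
    · rw [cder_mul, cder_C, h2 e he hne, cder_pe hu', zero_mul, mul_zero, add_zero]
    · rw [← map_zero C, cder_C, map_zero]

variable (hu0 : ∀ i, coeff 0 (u i) ≠ 0) (hlam : ∀ e₀ ∈ Ee, ∃ δ : Derivation ℚ ℂ ℂ,
  (∀ i α, δ (coeff α (u i)) = 0) ∧ δ (lam e₀) = 1 ∧ ∀ e ∈ Ee, e ≠ e₀ → δ (lam e) = 0)

theorem ne_of_coeff {P : MvPolynomial (Fin (d + 1)) ℂ} (h : coeff 0 P ≠ 0) : P ≠ 0 := by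
  rintro rfl
  exact h (coeff_zero _)

include hu0 hlam

theorem gS_ne {a : Fin (d + 1) → ℤ} {T : ℕ} {e₀ : (U → ℤ) × (Fin d → ℤ)}
    (he₀ : e₀ ∈ Ee) : gS a T u Ee lam e₀ ≠ 0 := by
  intro h
  obtain ⟨δ, h1, h3, h4⟩ := hlam e₀ he₀
  apply pe_ne (u := fun i => w0 a (u i))
    (fun i => ne_of_coeff (by rw [coeff_zero_w0]; exact hu0 i)) T e₀
  apply MvPolynomial.funext
  intro ξ
  rw [← cder_gS he₀ h1 h3 h4 ξ, h, ← map_zero C, cder_C, map_zero, map_zero, map_zero]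

/-- General position. -/
theorem genpos {a : Fin (d + 1) → ℤ} (hu : ∀ i, AtLeastZ a (u i) 0)
    (hd0 : ∀ i, pderiv (0 : Fin (d + 1)) (u i) = 0)
    (h0 : a 0 = 0) (T : ℕ) {e₀ : (U → ℤ) × (Fin d → ℤ)} (he₀ : e₀ ∈ Ee)
    (hmin : ∀ e ∈ Ee, we a T e₀ ≤ we a T e) (ξ : Fin (d + 1) → ℂ) (hξ : ∀ j, ξ j ≠ 0)
    (hf : eval ξ (inFormZ (fl u) a) = 0) (t₀ t : ℂ)
    (ht : eval ξ (inFormZ (pS T u Ee lam) a) ≠ 0 → t = 0)
    (hrel : ∀ j, t₀ * eval ξ (pderiv j (inFormZ (fl u) a)) +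
      t * eval ξ (pderiv j (inFormZ (pS T u Ee lam) a)) = 0) : t₀ = 0 ∧ t = 0 := by
  classical
  obtain ⟨δ, hδ1, hδ3, hδ4⟩ := hlam e₀ he₀
  rw [((lead_f hu h0).isMin (fl_ne _)).2] at hf hrel
  rw [((lead_S hu T hmin).isMin (gS_ne hu0 hlam he₀)).2] at ht hrel
  have hg : ξ 0 * ∏ i, eval ξ (w0 a (u i)) = 1 := by
    rw [eval_fl] at hf
    linear_combination hf
  have hgi : ∏ i, eval ξ (w0 a (u i)) ≠ 0 := by
    intro h
    rw [h, mul_zero] at hg
    exact zero_ne_one hg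
  have hge : eval ξ (pe T (fun i => w0 a (u i)) e₀) ≠ 0 := by
    unfold pe
    rw [map_mul, map_prod, map_prod]
    refine mul_ne_zero ?_ ?_
    · refine Finset.prod_ne_zero_iff.2 fun i _ => ?_
      rw [map_pow]
      exact pow_ne_zero _ (Finset.prod_ne_zero_iff.1 hgi i (Finset.mem_univ i))
    · refine Finset.prod_ne_zero_iff.2 fun i _ => ?_
      rw [map_pow, eval_X]
      exact pow_ne_zero _ (hξ _)
  have ht' : t = 0 := by
    by_cases hs : eval ξ (gS a T u Ee lam e₀) = 0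
    · have hdf : ∑ i, eval ξ (pderiv i (fl fun i => w0 a (u i))) * δ (ξ i) = 0 := by
        have h2 := cder_fl (u := fun i => w0 a (u i)) (fun i α => der_w0 (hδ1 i) a α) ξ
        unfold cder at h2
        rw [hf, map_zero, zero_sub, neg_eq_zero] at h2
        exact h2
      have hds : ∑ i, eval ξ (pderiv i (gS a T u Ee lam e₀)) * δ (ξ i) =
          - eval ξ (pe T (fun i => w0 a (u i)) e₀) := by
        have h2 := cder_gS (a := a) (T := T) he₀ hδ1 hδ3 hδ4 ξ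
        unfold cder at h2
        rw [hs, map_zero, zero_sub] at h2
        rw [← h2, neg_neg]
      have hsum : ∑ j, (t₀ * eval ξ (pderiv j (fl fun i => w0 a (u i))) +
          t * eval ξ (pderiv j (gS a T u Ee lam e₀))) * δ (ξ j) = 0 :=
        Finset.sum_eq_zero fun j _ => by rw [hrel j, zero_mul]
      have hexp : ∑ j, (t₀ * eval ξ (pderiv j (fl fun i => w0 a (u i))) +
          t * eval ξ (pderiv j (gS a T u Ee lam e₀))) * δ (ξ j) =
          t₀ * ∑ j, eval ξ (pderiv j (fl fun i => w0 a (u i))) * δ (ξ j) +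
          t * ∑ j, eval ξ (pderiv j (gS a T u Ee lam e₀)) * δ (ξ j) := by
        rw [Finset.mul_sum, Finset.mul_sum, ← Finset.sum_add_distrib]
        exact Finset.sum_congr rfl fun j _ => by ring
      rw [hexp, hdf, hds, mul_zero, zero_add] at hsum
      exact (mul_eq_zero.1 hsum).resolve_right (neg_ne_zero.2 hge)
    · exact ht hs
  refine ⟨?_, ht'⟩
  have h2 := hrel 0
  rw [ht', zero_mul, add_zero] at h2
  refine (mul_eq_zero.1 h2).resolve_right ?_
  have h4 : ∀ i, pderiv (0 : Fin (d + 1)) (w0 a (u i)) = 0 := by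
    intro i
    unfold w0
    rw [map_sum]
    refine Finset.sum_eq_zero fun α hα => ?_
    have hα' : coeff α (u i) ≠ 0 := mem_support_iff.1 (Finset.mem_filter.1 hα).1
    rw [pderiv_monomial]
    have h5 : α 0 = 0 := by
      by_contra hne
      have h6 := congrArg (coeff (α - Finsupp.single 0 1)) (hd0 i)
      rw [coeff_pderiv, coeff_zero] at h6
      have h7 : α - Finsupp.single 0 1 + Finsupp.single 0 1 = α := by
        apply tsub_add_cancel_of_le
        intro j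
        by_cases hj : j = 0
        · subst hj
          rw [Finsupp.single_eq_same]
          omega
        · rw [Finsupp.single_eq_of_ne hj]
          exact Nat.zero_le _
      rw [h7] at h6
      rcases mul_eq_zero.1 h6 with h8 | h8
      · exact hα' h8
      · exact Nat.cast_add_one_ne_zero _ h8
    rw [h5, Nat.cast_zero, mul_zero, monomial_zero]
  have h3 : eval ξ (pderiv 0 (fl fun i => w0 a (u i))) = ∏ i, eval ξ (w0 a (u i)) := by
    have h6 : ∀ s : Finset U, pderiv (0 : Fin (d + 1)) (∏ i ∈ s, w0 a (u i)) = 0 := by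
      intro s
      induction s using Finset.induction_on with
      | empty => rw [Finset.prod_empty, Derivation.map_one_eq_zero]
      | insert j s hj ih =>
        rw [Finset.prod_insert hj, Derivation.leibniz, ih, h4]; simp
    unfold fl
    rw [map_add, pderiv_C, add_zero, Derivation.leibniz, h6, pderiv_X_self]
    simp
  rw [h3]
  exact hgi

end Main

/-- The terms. -/
noncomputable def pterm {L : Type} [Field L] [Algebra ℂ L] {d : ℕ} {U : Type} [Fintype U]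
    (y : Fin d → L) (q : U → MvPolynomial (Fin d) ℂ) (e : (U → ℤ) × (Fin d → ℤ)) : L :=
  (∏ i, aeval y (q i) ^ e.1 i) * ∏ j, y j ^ e.2 j

theorem wtZ_map {d : ℕ} (a : Fin (d + 1) → ℤ) (β : Fin d →₀ ℕ) :
    wtZ a (Finsupp.mapDomain Fin.succ β) = ∑ j, a j.succ * (β j : ℤ) := by
  unfold wtZ
  rw [Fin.sum_univ_succ]
  have h1 : (Finsupp.mapDomain Fin.succ β) (0 : Fin (d + 1)) = 0 := by
    apply Finsupp.mapDomain_notin_range
    rintro ⟨x, hx⟩
    exact Fin.succ_ne_zero x hx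
  rw [h1, Nat.cast_zero, mul_zero, zero_add]
  refine Finset.sum_congr rfl fun j _ => ?_
  rw [Finsupp.mapDomain_apply (Fin.succ_injective d)]

/-- Values and orders in a chart with polynomial units. -/
theorem poly_bound {L : Type} [Field L] [Algebra ℂ L] {d : ℕ} {U : Type} [Fintype U]
    {y : Fin d → L} (hd : 0 < d) (H : IsRat y) (q : U → MvPolynomial (Fin d) ℂ)
    (hq : ∀ i, coeff 0 (q i) ≠ 0) (Ee : Finset ((U → ℤ) × (Fin d → ℤ)))
    (lam : (U → ℤ) × (Fin d → ℤ) → ℂ) (hne : Ee.Nonempty)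
    (hlam : ∀ e₀ ∈ Ee, ∃ δ : Derivation ℚ ℂ ℂ, (∀ i β, δ (coeff β (q i)) = 0) ∧
      δ (lam e₀) = 1 ∧ ∀ e ∈ Ee, e ≠ e₀ → δ (lam e) = 0) :
    ∑ e ∈ Ee, algebraMap ℂ L (lam e) * pterm y q e ≠ 0 ∧
    ∀ (w : AddValuation L (WithTop ℤ)), Q.IsDivisorial d w →
      (∀ i, ∀ β ∈ (q i).support, 0 ≤ ∑ j, ov w (y j) * (β j : ℤ)) →
      (∀ i, ov w (aeval y (q i)) = 0) → ∀ (D' : Fin d → Derivation ℂ L L) (h : L),
      h * Q.jac D' y = 1 → ∀ m' : ℤ, Q.FormOrder w D' m' →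
      ∀ e₀ ∈ Ee, (∀ e ∈ Ee, twt w y e₀ ≤ twt w y e) →
      ov w h + ∑ j, ov w (y j) +
        (ov w (∑ e ∈ Ee, algebraMap ℂ L (lam e) * pterm y q e) - twt w y e₀) ≤ 1 + m' := by
  classical
  obtain ⟨k, rfl⟩ : ∃ k, d = k + 1 := ⟨d - 1, by omega⟩
  have hqi : ∀ i, q i ≠ 0 := by
    intro i h
    apply hq i
    rw [h, coeff_zero]
  have hQ : (∏ i, q i) ≠ 0 := Finset.prod_ne_zero_iff.2 fun i _ => hqi i
  have HD : HypData (pY y (∏ i, q i)) (pF (∏ i, q i)) := poly_hyp H hQ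
  have hfl : pF (∏ i, q i) = fl fun i => rename Fin.succ (q i) := by
    unfold pF fl
    rw [map_prod, map_neg, map_one, sub_eq_add_neg]
  rw [hfl] at HD
  obtain ⟨T, hT⟩ : ∃ T : ℕ, ∀ e ∈ Ee, (∀ i, 0 ≤ e.1 i + T) ∧ ∀ l, 0 ≤ e.2 l + T := by
    refine ⟨∑ e ∈ Ee, (∑ i, (e.1 i).natAbs + ∑ l, (e.2 l).natAbs), ?_⟩
    intro e he
    have h1 : ∑ i, (e.1 i).natAbs + ∑ l, (e.2 l).natAbs ≤
        ∑ e ∈ Ee, (∑ i, (e.1 i).natAbs + ∑ l, (e.2 l).natAbs) :=
      Finset.single_le_sum (f := fun e : (U → ℤ) × (Fin (k + 1) → ℤ) =>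
        ∑ i, (e.1 i).natAbs + ∑ l, (e.2 l).natAbs) (fun _ _ => Nat.zero_le _) he
    refine ⟨fun i => ?_, fun l => ?_⟩
    · have h2 := Finset.single_le_sum (f := fun i => (e.1 i).natAbs) (fun _ _ => Nat.zero_le _)
        (Finset.mem_univ i)
      omega
    · have h2 := Finset.single_le_sum (f := fun l => (e.2 l).natAbs) (fun _ _ => Nat.zero_le _)
        (Finset.mem_univ l)
      omega
  have hcr : ∀ i, coeff 0 (rename (Fin.succ : Fin (k + 1) → Fin (k + 2)) (q i)) = coeff 0 (q i) := by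
    intro i
    rw [← constantCoeff_eq, ← constantCoeff_eq, constantCoeff_rename]
  have hu0 : ∀ i, coeff 0 (rename (Fin.succ : Fin (k + 1) → Fin (k + 2)) (q i)) ≠ 0 := by
    intro i
    rw [hcr]
    exact hq i
  have hlam' : ∀ e₀ ∈ Ee, ∃ δ : Derivation ℚ ℂ ℂ,
      (∀ i α, δ (coeff α (rename (Fin.succ : Fin (k + 1) → Fin (k + 2)) (q i))) = 0) ∧
      δ (lam e₀) = 1 ∧ ∀ e ∈ Ee, e ≠ e₀ → δ (lam e) = 0 := by
    intro e₀ he₀
    obtain ⟨δ, h1, h2, h3⟩ := hlam e₀ he₀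
    refine ⟨δ, fun i α => ?_, h2, h3⟩
    by_cases hα : ∃ β : Fin (k + 1) →₀ ℕ, Finsupp.mapDomain Fin.succ β = α ∧ coeff β (q i) ≠ 0
    · obtain ⟨β, rfl, -⟩ := hα
      rw [coeff_rename_mapDomain _ (Fin.succ_injective _)]
      exact h1 i β
    · rw [coeff_rename_eq_zero, map_zero]
      intro β hβ
      by_contra hne'
      exact hα ⟨β, hβ, hne'⟩
  have hAL : ∀ a : Fin (k + 2) → ℤ, (∀ i, ∀ β ∈ (q i).support, 0 ≤ ∑ j, a j.succ * (β j : ℤ)) →
      ∀ i, AtLeastZ a (rename (Fin.succ : Fin (k + 1) → Fin (k + 2)) (q i)) 0 := by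
    intro a ha i α hα
    rw [support_rename_of_injective (Fin.succ_injective _)] at hα
    obtain ⟨β, hβ, rfl⟩ := Finset.mem_image.1 hα
    rw [wtZ_map]
    exact ha i β hβ
  have hd0 : ∀ i, pderiv (0 : Fin (k + 2))
      (rename (Fin.succ : Fin (k + 1) → Fin (k + 2)) (q i)) = 0 := by
    intro i
    apply pderiv_eq_zero_of_notMem_vars
    intro h
    obtain ⟨l, -, hl⟩ := Finset.mem_image.1 (vars_rename Fin.succ (q i) h)
    exact Fin.succ_ne_zero l hl
  have hy0 : ∀ l, y l ≠ 0 := fun l => HD.x0 l.succ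
  have hunit : ∀ i, aeval y (q i) ≠ 0 := fun i => q_ne H (hqi i)
  have hQ0 : aeval y (∏ i, q i) ≠ 0 := q_ne H hQ
  have hyp : (∏ l, y l) ≠ 0 := Finset.prod_ne_zero_iff.2 fun l _ => hy0 l
  have hup : (∏ i, aeval y (q i)) ≠ 0 := Finset.prod_ne_zero_iff.2 fun i _ => hunit i
  obtain ⟨e₁, he₁⟩ := hne
  have hwe0 : ∀ e : (U → ℤ) × (Fin (k + 1) → ℤ), we (0 : Fin (k + 2) → ℤ) T e = 0 := by
    intro e
    unfold we
    simp
  have hAL0 : ∀ i, AtLeastZ (0 : Fin (k + 2) → ℤ)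
      (rename (Fin.succ : Fin (k + 1) → Fin (k + 2)) (q i)) 0 := by
    intro i α _
    unfold wtZ
    simp
  have hS0 : pS T (fun i => rename (Fin.succ : Fin (k + 1) → Fin (k + 2)) (q i)) Ee lam ≠ 0 := by
    intro h
    have h1 := ((lead_S (lam := lam) hAL0 T
      (e₀ := e₁) (fun e _ => by rw [hwe0, hwe0])).isMin (gS_ne hu0 hlam' he₁)).1
    rw [h] at h1
    obtain ⟨⟨α, hα, -⟩, -⟩ := h1
    simp at hα
  have hSy : aeval (pY y (∏ i, q i))
      (pS T (fun i => rename (Fin.succ : Fin (k + 1) → Fin (k + 2)) (q i)) Ee lam) =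
      (∑ e ∈ Ee, algebraMap ℂ L (lam e) * pterm y q e) *
        ((∏ i, aeval y (q i)) ^ T * (∏ l, y l) ^ T) := by
    unfold pS
    rw [map_sum, Finset.sum_mul]
    refine Finset.sum_congr rfl fun e he => ?_
    obtain ⟨h1, h2⟩ := hT e he
    have e2 : ∀ l : Fin (k + 1), aeval (pY y (∏ i, q i)) (X l.succ :
        MvPolynomial (Fin (k + 2)) ℂ) = y l := by
      intro l
      rw [aeval_X]; rfl
    have e1 : ∀ i, aeval (pY y (∏ i, q i)) (rename Fin.succ (q i)) = aeval y (q i) := by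
      intro i
      rw [aeval_rename]
      rfl
    unfold pe pterm
    rw [map_mul, aeval_C, map_mul, map_prod, map_prod]
    simp only [map_pow, e1, e2]
    rw [Finset.prod_congr rfl fun i _ => pow_shift (hunit i) (h1 i),
      Finset.prod_congr rfl fun l _ => pow_shift (hy0 l) (h2 l), Finset.prod_mul_distrib,
      Finset.prod_mul_distrib, Finset.prod_pow, Finset.prod_pow]
    ring
  have hSne : aeval (pY y (∏ i, q i))
      (pS T (fun i => rename (Fin.succ : Fin (k + 1) → Fin (k + 2)) (q i)) Ee lam) ≠ 0 := by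
    refine Z647.aeval_neZ (s := 0) (v := (Fin.elim0 : Fin 0 → Fin (k + 2) → ℤ))
      (g := (Fin.elim0 : Fin 0 → MvPolynomial (Fin (k + 2)) ℂ)) HD hS0 ?_
    intro a ha ξ hξ hf t₀ t t' _ ht' hrel
    have ha0 : a = 0 := by
      obtain ⟨c, -, hc⟩ := ha
      funext j
      have := hc j
      rw [Finset.univ_eq_empty, Finset.sum_empty] at this
      exact_mod_cast this
    subst ha0
    have h1 := genpos (lam := lam) hu0 hlam' (a := (0 : Fin (k + 2) → ℤ)) hAL0 hd0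
      rfl T he₁ (fun e _ => by rw [hwe0, hwe0]) ξ hξ hf t₀ t' ht' (fun j => by
        have := hrel j
        rw [Finset.univ_eq_empty, Finset.sum_empty, add_zero] at this
        exact this)
    exact ⟨h1.1, h1.2, fun i => i.elim0⟩
  have hF0 : (∑ e ∈ Ee, algebraMap ℂ L (lam e) * pterm y q e) ≠ 0 := by
    intro h
    rw [hSy, h, zero_mul] at hSne
    exact hSne rfl
  refine ⟨hF0, ?_⟩
  intro w hw hwp hwl D' h hjac m' hm' e₀ he₀ hmin
  have h0 : h ≠ 0 := by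
    rintro rfl
    rw [zero_mul] at hjac
    exact zero_ne_one hjac
  have R : ResForm (pY y (∏ i, q i)) (pF (∏ i, q i)) D' (aeval y (∏ i, q i) * h) :=
    poly_res H hQ hjac
  rw [hfl] at R
  -- the weights
  obtain ⟨a, ha⟩ : ∃ a : Fin (k + 2) → ℤ, ∀ j, a j = ov w (pY y (∏ i, q i) j) := ⟨_, fun _ => rfl⟩
  have hal : ∀ l : Fin (k + 1), a l.succ = ov w (y l) := fun l => ha l.succ
  have hQv : ov w (aeval y (∏ i, q i)) = 0 := by
    rw [map_prod, ov_prod _ _ fun i _ => hunit i]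
    exact Finset.sum_eq_zero fun i _ => hwl i
  have hQv' : ov w (∏ i, aeval y (q i)) = 0 := by
    rw [← map_prod]
    exact hQv
  have ha0 : a 0 = 0 := by
    rw [ha 0]
    show ov w (aeval y (∏ i, q i))⁻¹ = 0
    rw [ov_inv, hQv, neg_zero]
  have hap : ∀ i, AtLeastZ a (rename (Fin.succ : Fin (k + 1) → Fin (k + 2)) (q i)) 0 := by
    apply hAL
    intro i β hβ
    refine le_of_le_of_eq (hwp i β hβ) (Finset.sum_congr rfl fun j _ => ?_)
    rw [hal]
  have hweq : ∀ e ∈ Ee, we a T e = twt w y e + T * ∑ l, ov w (y l) := by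
    intro e he
    obtain ⟨h1, h2⟩ := hT e he
    unfold we twt
    rw [Finset.mul_sum, ← Finset.sum_add_distrib]
    refine Finset.sum_congr rfl fun l _ => ?_
    rw [Int.toNat_of_nonneg (h2 l), hal]
    ring
  have hmin' : ∀ e ∈ Ee, we a T e₀ ≤ we a T e := by
    intro e he
    rw [hweq e he, hweq e₀ he₀]
    have := hmin e he
    linarith
  have hb : ∀ j, w (pY y (∏ i, q i) j) = (a j : WithTop ℤ) := by
    intro j
    rw [ha j, coe_ov w (HD.x0 j)]
  have key := Z647.X_bound_aux (s := 0) HD R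
    (fun _ => pS T (fun i => rename (Fin.succ : Fin (k + 1) → Fin (k + 2)) (q i)) Ee lam)
    (fun _ => hS0) (fun _ => hSne) a (by
      intro ξ hξ hf t₀ t ht hrel
      have h1 := genpos (lam := lam) hu0 hlam' hap hd0 ha0 T he₀ hmin' ξ hξ hf t₀
        (t none) (ht none) (fun j => by
          have := hrel j
          rw [Fintype.sum_option, Finset.univ_eq_empty, Finset.sum_empty, add_zero] at this
          exact this)
      refine ⟨h1.1, ?_⟩
      rintro (_ | i)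
      · exact h1.2
      · exact i.elim0)
    hw hb hm'
  rw [Fintype.sum_option, Fin.sum_univ_zero, add_zero] at key
  have hmf : minWt (fl fun i => rename (Fin.succ : Fin (k + 1) → Fin (k + 2)) (q i)) a = 0 :=
    (isMinZ_minWt (fl_ne _) a).unique ((lead_f hap ha0).isMin (fl_ne _)).1
  have hms : minWt (pS T (fun i => rename (Fin.succ : Fin (k + 1) → Fin (k + 2)) (q i)) Ee lam) a =
      we a T e₀ :=
    (isMinZ_minWt hS0 a).unique ((lead_S hap T hmin').isMin (gS_ne hu0 hlam' he₀)).1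
  have hsa : ∑ j, a j = ∑ l, ov w (y l) := by
    rw [Fin.sum_univ_succ, ha0, zero_add]
    exact Finset.sum_congr rfl fun l _ => hal l
  have hvh : ov w (aeval y (∏ i, q i) * h) = ov w h := by
    rw [ov_mul w hQ0 h0, hQv, zero_add]
  have hvS : ov w (aeval (pY y (∏ i, q i))
      (pS T (fun i => rename (Fin.succ : Fin (k + 1) → Fin (k + 2)) (q i)) Ee lam)) =
      ov w (∑ e ∈ Ee, algebraMap ℂ L (lam e) * pterm y q e) + T * ∑ l, ov w (y l) := by
    rw [hSy, ov_mul w hF0 (mul_ne_zero (pow_ne_zero _ hup) (pow_ne_zero _ hyp)),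
      ov_mul w (pow_ne_zero _ hup) (pow_ne_zero _ hyp), ov_pow w hup, ov_pow w hyp, hQv',
      ov_prod _ _ fun l _ => hy0 l]
    ring
  rw [hmf, hms, hsa, hvh, hvS, hweq e₀ he₀] at key
  linarith

end Vale.Agent.P283.A647.H91
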